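import Vale.Agent.P183SL.Cas

/-!
Structure of a twisted tensor product restricted to a subgroup.
-/

set_option autoImplicit false
set_option linter.all false

namespace Vale.Agent.P183SL

open Matrix Subgroup Vale.Agent.P183NK Vale.Agent.P183M

lemma list_mul {ι B : Type} [Monoid B] {l : List ι} (hl : l.Nodup) (f g : ι → B)
    (h : ∀ x ∈ l, ∀ y ∈ l, x ≠ y → Commute (g x) (f y)) :
    (l.map f).prod * (l.map g).prod = (l.map fun x => f x * g x).prod := by
  induction l with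
  | nil => simp
  | cons a l ih =>
    rw [List.nodup_cons] at hl
    simp only [List.map_cons, List.prod_cons]
    have h1 : Commute (g a) (l.map f).prod := Commute.list_prod_right _ _ fun x hx => by
      obtain ⟨y, hy, rfl⟩ := List.mem_map.1 hx
      exact h a (by simp) y (by simp [hy]) fun e => hl.1 (e ▸ hy)
    rw [← ih hl.2 fun x hx y hy => h x (by simp [hx]) y (by simp [hy]), mul_assoc, mul_assoc,
      ← mul_assoc (l.map f).prod, ← h1.eq, mul_assoc]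

lemma pp_mul {ι B : Type} [Monoid B] (s : Finset ι) (f g : ι → B)
    (h : ∀ x ∈ s, ∀ y ∈ s, x ≠ y → Commute (g x) (f y)) :
    pp s f * pp s g = pp s fun x => f x * g x :=
  list_mul s.nodup_toList f g fun x hx y hy => h x (Finset.mem_toList.1 hx) y (Finset.mem_toList.1 hy)

lemma pp_congr {ι B : Type} [Monoid B] {s : Finset ι} {f g : ι → B} (h : ∀ x ∈ s, f x = g x) :
    pp s f = pp s g :=
  congrArg List.prod (List.map_congr_left fun x hx => h x (Finset.mem_toList.1 hx))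

lemma pp_one {ι B : Type} [Monoid B] (s : Finset ι) : pp s (fun _ => (1 : B)) = 1 := by
  simp [pp]

lemma pp_map {ι B B' : Type} [Monoid B] [Monoid B'] (s : Finset ι) (f : ι → B) (φ : B →* B') :
    φ (pp s f) = pp s fun x => φ (f x) := by
  rw [pp, map_list_prod, List.map_map]
  rfl

section
variable {p : ℕ} {G G' : Type} [Group G] [Group G'] {R F0 R' F0' : Type} [CommRing R] [Field F0]
  [CommRing R'] [Field F0'] {d d' : ℕ} {D : Dat G R F0 d} {D' : Dat G' R' F0' d'} {k : Type}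
  [Field k] {n : ℕ} {τ : G' →* Matrix (Fin n) (Fin n) k} {ψ : G →* G'}

lemma xx_zero (h : CD p D) (y : G) : D.xx y 0 = 1 :=
  h.pinj _ _ (h.isP_xx y 0) ⟨0, one_pow _⟩ (by
    rw [h.ρ_xx, map_zero, zero_smul, add_zero, map_one])

lemma adj (h : CD p D) (g : G) : (D.ρ g).map D.σ = (D.J * D.ρ g⁻¹ * D.J⁻¹)ᵀ := by
  have hJ : ((D.ρ g).map D.σ)ᵀ * D.J * D.ρ g = D.J := by
    ext a b
    rw [← D.β_ee a b, ← h.inv g, Dat.β, Matrix.mul_assoc, Matrix.mul_apply, dotProduct]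
    refine Finset.sum_congr rfl fun i _ => ?_
    rw [mulVec_ee, mulVec_mulVec, mulVec_ee]
    rfl
  rw [← transpose_transpose ((D.ρ g).map D.σ)]
  congr 1
  have h1 : D.J * D.ρ g⁻¹ = ((D.ρ g).map D.σ)ᵀ * D.J := by
    conv_lhs => rw [← hJ]
    rw [mul_assoc, ← map_mul, mul_inv_cancel, map_one, mul_one]
  rw [h1, mul_assoc, mul_nonsing_inv _ h.nondeg, mul_one]

lemma conj2 (V : TV D' τ) (θ : V.A) (T : TV D (tw θ.1 (D'.ρ.comp ψ))) (a : T.A) (g : G)
    (X : Matrix (Fin d) (Fin d) k) : τ.comp ψ g * V.j θ (T.j a X) =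
      V.j θ (T.j a (tw a.1 D.ρ g * X * tw a.1 D.ρ g⁻¹)) * τ.comp ψ g := by
  rw [MonoidHom.comp_apply, V.conj_j, ← map_inv]
  congr 2
  change tw θ.1 (D'.ρ.comp ψ) g * _ * tw θ.1 (D'.ρ.comp ψ) g⁻¹ = _
  rw [T.conj_j, mul_assoc, ← map_mul, mul_inv_cancel, map_one, mul_one]
  rfl

variable [hp : Fact p.Prime] [CharP k p] [IsAlgClosed k] [Fintype F0] [CharP F0 p] [Finite G]
  (h : CD p D) (hm : 0 < D.m) (V : TV D' τ) (T : ∀ θ : V.A, TV D (tw θ.1 (D'.ρ.comp ψ)))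
  (W : TV D (τ.comp ψ))
include h hm T W

theorem disj {θ θ' : V.A} (hθ : θ ≠ θ') :
    Disjoint (Dg p D (tw θ.1 (D'.ρ.comp ψ))) (Dg p D (tw θ'.1 (D'.ρ.comp ψ))) := by
  have : Nonempty (Fin d) := ⟨D.z⟩
  have : Nonempty (Fin d') := ⟨D'.z⟩
  rw [(T θ).dg_eq h hm, (T θ').dg_eq h hm, Set.disjoint_left]
  rintro _ ⟨a, rfl⟩ ⟨b, hb⟩
  have hi := (V.j_inj θ').comp ((T θ').j_inj b)
  rcases h.hom_cases hb.symm with e | e
  · refine casimir (W.ai h) (h.two_le hm) (tw a.1 D.ρ) ((V.j θ).comp ((T θ).j a))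
      ((V.j θ').comp ((T θ').j b)).toLinearMap (conj2 V θ (T θ) a) (fun g X => ?_)
      (fun X Y => V.j_comm hθ _ _) hi
    rw [← e]
    exact conj2 V θ' (T θ') b g X
  · have i1 : D.J⁻¹.map a.1 * D.J.map a.1 = 1 := by
      rw [← Matrix.map_mul, nonsing_inv_mul _ h.nondeg,
        Matrix.map_one _ (map_zero _) (map_one _)]
    have h1 : ∀ g, tw b.1 D.ρ g = (D.J.map a.1 * tw a.1 D.ρ g⁻¹ * D.J⁻¹.map a.1)ᵀ := fun g => by
      rw [e, tw_apply, tw_apply, ← Matrix.map_mul, ← Matrix.map_mul, ← transpose_map, ← adj h,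
        Matrix.map_map]
      rfl
    let Φ : Matrix (Fin d) (Fin d) k →ₗ[k] Matrix (Fin d) (Fin d) k :=
      { toFun := fun X => (D.J.map a.1 * X * D.J⁻¹.map a.1)ᵀ
        map_add' := fun X Y => by rw [mul_add, add_mul, transpose_add]
        map_smul' := fun c X => by rw [mul_smul_comm, smul_mul_assoc, transpose_smul]; rfl }
    have h2 : Function.Injective Φ := fun X Y e => by
      have h3 : D.J.map a.1 * X * D.J⁻¹.map a.1 = D.J.map a.1 * Y * D.J⁻¹.map a.1 :=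
        transpose_injective e
      have h4 := congrArg (fun Z => D.J⁻¹.map a.1 * Z * D.J.map a.1) h3
      simpa only [mul_assoc, i1, mul_one, ← mul_assoc (D.J⁻¹.map a.1), one_mul] using h4
    refine casimir (W.ai h) (h.two_le hm) (tw a.1 D.ρ) ((V.j θ).comp ((T θ).j a))
      (((V.j θ').comp ((T θ').j b)).toLinearMap.comp Φ) (conj2 V θ (T θ) a) (fun g X => ?_)
      (fun X Y => V.j_comm hθ _ _) (hi.comp h2)
    refine (conj2 V θ' (T θ') b g (Φ X)).trans ?_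
    have h5 : tw b.1 D.ρ g * Φ X * tw b.1 D.ρ g⁻¹ = Φ (tw a.1 D.ρ g * X * tw a.1 D.ρ g⁻¹) := by
      change _ * (D.J.map a.1 * X * D.J⁻¹.map a.1)ᵀ * _ =
        (D.J.map a.1 * (tw a.1 D.ρ g * X * tw a.1 D.ρ g⁻¹) * D.J⁻¹.map a.1)ᵀ
      rw [h1, h1, ← transpose_mul, ← transpose_mul, inv_inv]
      congr 1
      simp only [mul_assoc]
      rw [← mul_assoc (D.J⁻¹.map a.1), i1, one_mul, ← mul_assoc (D.J⁻¹.map a.1), i1, one_mul]
    rw [h5]
    rfl

lemma rest_sp (y : G) (s : Finset V.A) :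
    (fun t => V.E (kr fun b => if b ∈ s then tw b.1 (D'.ρ.comp ψ) (D.xx y t) else 1)) ∈
      Sp (⋃ b ∈ s, Dg p D (tw b.1 (D'.ρ.comp ψ))) := by
  induction s using Finset.induction_on with
  | empty =>
    simpa [kr_one, χ_empty] using Sp.gen (D := (∅ : Set (F0 →+* k))) (S := ∅) (by simp)
      (1 : Matrix (Fin n) (Fin n) k)
  | insert a s ha ih =>
    simp only [kr_insert _ ha, map_mul, Finset.set_biUnion_insert]
    refine Sp.mul ?_ ?_ ih
    · simp only [Set.disjoint_iUnion_right]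
      exact fun b hb => disj h hm V T W fun e => ha (e ▸ hb)
    · rw [(T a).dg_eq h hm]
      exact Sp.map ((T a).sp h y) (V.j a).toLinearMap

lemma cf_j (θ : V.A) {S : Finset (F0 →+* k)} (hS : ↑S ⊆ Dg p D (tw θ.1 (D'.ρ.comp ψ))) (y : G) :
    CF p D (τ.comp ψ) S y = V.j θ (CF p D (tw θ.1 (D'.ρ.comp ψ)) S y) := by
  have h1 : Disjoint (Dg p D (tw θ.1 (D'.ρ.comp ψ)))
      (⋃ b ∈ Finset.univ.erase θ, Dg p D (tw b.1 (D'.ρ.comp ψ))) := by
    simp only [Set.disjoint_iUnion_right]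
    exact fun b hb => disj h hm V T W (Finset.ne_of_mem_erase hb).symm
  have h2 := Sp.map ((T θ).sp h y) (V.j θ).toLinearMap
  rw [← (T θ).dg_eq h hm] at h2
  have h3 := Sp.cf_mul (p := p) h1 h2 (rest_sp h hm V T W y _) (h1.mono_left hS)
  simp only [xx_zero h, map_one, ite_self, kr_one, mul_one] at h3
  refine Eq.trans ?_ (h3.trans (cf_map S _ (V.j θ).toLinearMap).symm)
  refine congrArg _ (funext fun t => ?_)
  rw [MonoidHom.comp_apply, V.eq', kr_split _ θ, map_mul]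
  rfl

theorem dg_union : Dg p D (τ.comp ψ) = ⋃ θ : V.A, Dg p D (tw θ.1 (D'.ρ.comp ψ)) := by
  have : Nonempty (Fin d') := ⟨D'.z⟩
  ext a
  constructor
  · intro h1
    by_contra h2
    have h3 := rest_sp h hm V T W 1 Finset.univ
    simp only [Finset.mem_univ, if_true, Set.iUnion_true] at h3
    refine h1 (Eq.trans ?_ (Sp.cf_out (p := p) h3 (S := {a}) (by simpa using h2)))
    exact congrArg _ (funext fun t => V.eq' _)
  · intro h1
    obtain ⟨θ, h1⟩ := Set.mem_iUnion.1 h1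
    rw [Dg, Set.mem_setOf_eq, cf_j h hm V T W θ (by simpa using h1)]
    exact fun h2 => h1 (V.j_inj θ (h2.trans (map_zero _).symm))

lemma j_AA (θ : V.A) (M : Matrix (Fin d') (Fin d') k) :
    V.j θ M ∈ AA p D (τ.comp ψ) (Dg p D (tw θ.1 (D'.ρ.comp ψ))) := by
  have h1 := (T θ).AA_top h M
  rw [← (T θ).dg_eq h hm] at h1
  refine AA_le (W := (AA p D (τ.comp ψ) (Dg p D (tw θ.1 (D'.ρ.comp ψ)))).comap (V.j θ))
    (fun a ha y => ?_) h1
  rw [Subalgebra.mem_comap, ← cf_j h hm V T W θ (by simpa using ha)]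
  exact AA_gen ha y

theorem pure (X : Set (F0 →+* k)) (hX : ∀ θ : V.A, Dg p D (tw θ.1 (D'.ρ.comp ψ)) ⊆ X ∨
    Disjoint (Dg p D (tw θ.1 (D'.ρ.comp ψ))) X) (ω : G') : Pure p D (τ.comp ψ) X (τ ω) := by
  rw [V.eq']
  refine V.ind (P := Pure p D (τ.comp ψ) X) _ ⟨1, one_mem _, 1, one_mem _, (one_mul 1).symm⟩ ?_
  rintro θ _ ⟨M1, h1, M2, h2, rfl⟩
  rcases hX θ with e | e
  · exact ⟨_, mul_mem (AA_mono e (j_AA h hm V T W θ _)) h1, M2, h2, (mul_assoc _ _ _).symm⟩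
  · have h3 := AA_mono e.subset_compl_right (j_AA h hm V T W θ ((D'.ρ ω).map θ.1))
    refine ⟨M1, h1, _, mul_mem h3 h2, ?_⟩
    rw [← mul_assoc, ← mul_assoc, (W.AA_comm h disjoint_compl_right h1 h3).eq]

omit T W in
lemma MM_out {n : ℕ} {τ : G →* Matrix (Fin n) (Fin n) k} (U : TV D τ) (a b c : G)
    {S : Finset (F0 →+* k)} (hS : ¬ ↑S ⊆ Dg p D τ) : MM p D τ a b c S = 0 := by
  rw [U.dg_eq h hm] at hS
  simp only [MM, U.cf_eq h, U.KK_out _ hS, mul_zero, smul_zero, sub_zero]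

omit hm T W in
lemma MM_mem {n : ℕ} {τ : G →* Matrix (Fin n) (Fin n) k} (U : TV D τ) (a b c : G)
    (S : Finset (F0 →+* k)) : 1 + MM p D τ a b c S ∈ AA p D τ S := by
  have h1 : ∀ y, CF p D τ S y ∈ AA p D τ S := fun y => by
    rw [U.cf_eq h]
    exact U.KK_mem h y S
  exact add_mem (one_mem _) (sub_mem (mul_mem (mul_mem (h1 a) (h1 b)) (h1 c))
    (Subalgebra.smul_mem _ (mul_mem (mul_mem (h1 c) (h1 b)) (h1 a)) _))

open Classical in
theorem gg_eq (a b c : G) (s : Finset (Finset (F0 →+* k))) (hs : Fm s)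
    (hA : ∀ θ : V.A, ∀ S ∈ s, ↑S ⊆ Dg p D (tw θ.1 (D'.ρ.comp ψ)) ∨
      Disjoint ↑S (Dg p D (tw θ.1 (D'.ρ.comp ψ)))) :
    V.E (kr fun θ : V.A => gg p D (tw θ.1 (D'.ρ.comp ψ)) a b c s) = gg p D (τ.comp ψ) a b c s := by
  have h0 : ∀ (S : Finset (F0 →+* k)) (q : Prop) [Decidable q],
      (if q then 1 + MM p D (τ.comp ψ) a b c S else 1) ∈ AA p D (τ.comp ψ) S := fun S q _ => by
    split_ifs
    exacts [MM_mem h W a b c S, one_mem _]
  have h1 := kr_ind' (P := fun U X => V.E X = pp s fun S =>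
      if ∃ θ ∈ U, ↑S ⊆ Dg p D (tw θ.1 (D'.ρ.comp ψ)) then 1 + MM p D (τ.comp ψ) a b c S else 1)
    (fun θ : V.A => gg p D (tw θ.1 (D'.ρ.comp ψ)) a b c s) (by simp [pp_one])
    (fun U θ X hθ ih => by
      have h2 : V.E (jj θ (gg p D (tw θ.1 (D'.ρ.comp ψ)) a b c s)) = pp s fun S =>
          if ↑S ⊆ Dg p D (tw θ.1 (D'.ρ.comp ψ)) then 1 + MM p D (τ.comp ψ) a b c S else 1 := by
        refine (pp_map s _ (V.j θ).toMonoidHom).trans (pp_congr fun S hS => ?_)
        change V.j θ _ = _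
        split_ifs with h3
        · simp only [MM, cf_j h hm V T W θ h3, map_add, map_one, map_sub, map_mul, map_smul]
        · rw [MM_out h hm (T θ) a b c h3, add_zero, map_one]
      rw [map_mul, ih, h2, pp_mul]
      · refine pp_congr fun S hS => ?_
        simp only [Finset.exists_mem_insert]
        by_cases h3 : ↑S ⊆ Dg p D (tw θ.1 (D'.ρ.comp ψ))
        · rw [if_pos h3, if_pos (Or.inl h3), if_neg, mul_one]
          rintro ⟨θ', h4, h5⟩
          obtain ⟨e, he⟩ := hs.1 S hS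
          exact Set.disjoint_left.1 (disj h hm V T W fun e' : θ = θ' => hθ (e' ▸ h4))
            (h3 he) (h5 he)
        · rw [if_neg h3, one_mul]
          simp only [h3, false_or]
      · exact fun S hS S' hS' e => W.AA_comm h (Finset.disjoint_coe.2 (hs.2 S hS S' hS' e))
          (h0 S _) (h0 S' _)) Finset.univ
  simp only [Finset.mem_univ, if_true, true_and] at h1
  refine h1.trans (pp_congr fun S hS => ?_)
  split_ifs with h2
  · rfl
  · rw [MM_out h hm W a b c, add_zero]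
    rw [dg_union h hm V T W]
    intro h3
    obtain ⟨e, he⟩ := hs.1 S hS
    obtain ⟨θ, h4⟩ := Set.mem_iUnion.1 (h3 he)
    exact h2 ⟨θ, (hA θ S hS).resolve_right fun h5 => Set.disjoint_left.1 h5 he h4⟩

end

theorem sl : SL := by
  intro p _ G _ T T' C C' ψ hm _ hA n τ V ⟨W⟩
  have h0 : 0 < C.D.m := by omega
  have U : ∀ θ : V.A, TV C.D (tw θ.1 (C'.D.ρ.comp ψ)) := fun θ => (hA θ.1).some
  exact ⟨fun _ _ => disj C.cd h0 V U W, dg_union C.cd h0 V U W, pure C.cd h0 V U W,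
    fun a b c _ _ _ _ _ _ => gg_eq C.cd h0 V U W a b c⟩

end Vale.Agent.P183SL
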