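import Vale.Agent.P183M.IF3

/-!
The Casimir argument: two commuting equivariant copies of the same matrix algebra do not occur in
an absolutely irreducible module.
-/

set_option autoImplicit false
set_option linter.all false

namespace Vale.Agent.P183SL

open Matrix Subgroup Vale.Agent.P183M

section
variable {k : Type} [Field k] {d n : ℕ}

lemma sgl (P Q : Matrix (Fin d) (Fin d) k) (a b : Fin d) :
    P * single a b 1 * Q = ∑ c, ∑ e, (P c a * Q b e) • single c e (1 : k) := by
  conv_lhs => rw [matrix_eq_sum_single (P * single a b 1 * Q)]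
  refine Finset.sum_congr rfl fun c _ => Finset.sum_congr rfl fun e _ => ?_
  rw [smul_single, smul_eq_mul, mul_one, mul_assoc, mul_apply, Finset.sum_eq_single a,
    single_mul_apply_same, one_mul]
  · intro j _ hj
    rw [single_mul_apply_of_ne _ _ _ _ _ hj, mul_zero]
  · intro h
    exact absurd (Finset.mem_univ _) h

lemma sum4 {ι N : Type} [Fintype ι] [AddCommMonoid N] (F : ι → ι → ι → ι → N) :
    ∑ a, ∑ b, ∑ c, ∑ e, F a b c e = ∑ c, ∑ e, ∑ b, ∑ a, F a b c e :=
  calc _ = ∑ x : ι × ι, ∑ y : ι × ι, F x.2 x.1 y.1 y.2 := by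
        rw [Finset.sum_comm]
        simp only [Fintype.sum_prod_type]
    _ = _ := by
        rw [Finset.sum_comm]
        simp only [Fintype.sum_prod_type]

lemma cas_sum {N : Type} [AddCommGroup N] [Module k N]
    (B : Matrix (Fin d) (Fin d) k →ₗ[k] Matrix (Fin d) (Fin d) k →ₗ[k] N)
    (P Q : Matrix (Fin d) (Fin d) k) :
    ∑ a, ∑ b, B (P * single a b 1 * Q) (single b a 1) =
      ∑ c, ∑ e, B (single c e 1) (Q * single e c 1 * P) := by
  simp only [sgl, map_sum, map_smul, LinearMap.sum_apply, LinearMap.smul_apply]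
  rw [sum4]
  simp only [mul_comm]

theorem casimir {G : Type} [Group G] {τ : G →* Matrix (Fin n) (Fin n) k} (hτ : AI τ) (hd : 2 ≤ d)
    (M : G →* Matrix (Fin d) (Fin d) k)
    (i1 : Matrix (Fin d) (Fin d) k →ₐ[k] Matrix (Fin n) (Fin n) k)
    (i2 : Matrix (Fin d) (Fin d) k →ₗ[k] Matrix (Fin n) (Fin n) k)
    (h1 : ∀ g X, τ g * i1 X = i1 (M g * X * M g⁻¹) * τ g)
    (h2 : ∀ g X, τ g * i2 X = i2 (M g * X * M g⁻¹) * τ g)
    (hc : ∀ X Y, Commute (i1 X) (i2 Y)) (hi : Function.Injective i2) : False := by
  obtain ⟨c, hc'⟩ := hτ.scalar (M := ∑ a, ∑ b, i1 (single a b 1) * i2 (single b a 1)) fun g => by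
    have h3 := cas_sum ((LinearMap.mul k (Matrix (Fin n) (Fin n) k)).compl₁₂ i1.toLinearMap
      (i2.comp ((LinearMap.mulRight k (M g⁻¹)).comp (LinearMap.mulLeft k (M g))))) (M g) (M g⁻¹)
    simp only [LinearMap.compl₁₂_apply, LinearMap.mul_apply', AlgHom.toLinearMap_apply,
      LinearMap.comp_apply, LinearMap.mulLeft_apply, LinearMap.mulRight_apply] at h3
    have h4 : ∀ X, M g * (M g⁻¹ * X * M g) * M g⁻¹ = X := fun X => by
      rw [← mul_assoc, ← mul_assoc, ← map_mul, mul_inv_cancel, map_one, one_mul, mul_assoc,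
        ← map_mul, mul_inv_cancel, map_one, mul_one]
    simp only [h4] at h3
    conv_lhs => rw [← h3]
    simp only [Finset.mul_sum, Finset.sum_mul]
    refine Finset.sum_congr rfl fun a _ => Finset.sum_congr rfl fun b _ => ?_
    rw [← mul_assoc (τ g), h1, mul_assoc (i1 _) (τ g), h2, mul_assoc]
  let u : Fin d := ⟨0, by omega⟩
  let v : Fin d := ⟨1, by omega⟩
  have huv : u ≠ v := by simp [u, v]
  have h5 : i1 (single u v 1) * i2 (single v u 1) = 0 := by
    have h6 := congrArg (fun X => i1 (single u u 1) * X * i1 (single v v 1)) hc'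
    simp only [Finset.mul_sum, Finset.sum_mul, mul_smul_comm, smul_mul_assoc, mul_one,
      ← map_mul] at h6
    rw [single_mul_single_of_ne _ _ _ _ huv, map_zero, smul_zero] at h6
    rw [← h6, Finset.sum_eq_single u, Finset.sum_eq_single v]
    · rw [mul_assoc, mul_assoc, ← (hc _ _).eq, ← mul_assoc, ← mul_assoc, ← map_mul, ← map_mul,
        single_mul_single_same, single_mul_single_same, one_mul, one_mul]
    · intro b _ hb
      rw [mul_assoc, mul_assoc, ← (hc _ _).eq, ← mul_assoc, ← mul_assoc, ← map_mul, ← map_mul,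
        single_mul_single_same, single_mul_single_of_ne _ _ _ _ hb, map_zero, zero_mul]
    · intro h
      exact absurd (Finset.mem_univ _) h
    · intro a _ ha
      refine Finset.sum_eq_zero fun b _ => ?_
      rw [← mul_assoc, ← map_mul, single_mul_single_of_ne _ _ _ _ ha.symm, map_zero, zero_mul,
        zero_mul]
    · intro h
      exact absurd (Finset.mem_univ _) h
  have h7 : i2 (single v u 1) = 0 := by
    rw [← one_mul (i2 _), ← map_one i1, ← sum_single_one, map_sum, Finset.sum_mul]
    refine Finset.sum_eq_zero fun a _ => ?_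
    have h8 : single a a (1 : k) = single a u 1 * single u v 1 * single v a 1 := by
      rw [single_mul_single_same, single_mul_single_same, one_mul, one_mul]
    rw [h8, map_mul, map_mul, mul_assoc, (hc _ _).eq, ← mul_assoc, mul_assoc (i1 _), h5, mul_zero,
      zero_mul]
  have h9 := congrFun (congrFun (hi (h7.trans (map_zero _).symm)) v) u
  simp at h9

end

end Vale.Agent.P183SL
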